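import Vale.Agent.P273.H722.Theta
import Vale.Agent.P273.H722.UCore
import Vale.Agent.P273.H724.RegAn
import Vale.Agent.P273.H803.AsyL

/-!
# P273, row (U), cores: the region charts of 95 / 562 at the core marks

`dd` = half differences of the pairs of roots as functions of the base coordinates of the log chart,
`bb` = base coordinates, `sC` = core coordinate (`x`, or `w = 1 / x` for a far mark).
* `shE_near`, `shE_far`: the sheet of a core mark is `± yc`;
* `leg_near`, `leg_far`: the leg of a form on the family of curves is its pull-back along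
  `r ↦ (roots, x)`.
-/

noncomputable section

namespace Vale.Agent.P273.H293

open scoped ContDiff Topology
open Set Filter Complex
open Vale.Agent.P273.H214 (Bs ff)
open Vale.Agent.P273.H722 (Pa ct sqd yc mm)
open Vale.Agent.P273.H598 (rz)
open Vale.Agent.P273.H562 (Co W rootsL emb posE shE)
open Vale.Agent.P273.H803 (posj)
open Vale.Agent.P273.H973 (prj E1)
open Vale.Agent.P273.H95 (ctr L)

/-! ### the centres and the square roots -/

theorem ct_eq : ct = ctr := rfl

theorem gc_eq (ε : Fin 3 → ℂ) (x : ℂ) : H95.gc ε x = yc ε x := by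
  unfold H95.gc yc
  rw [ct_eq]
  refine Finset.prod_congr rfl fun l _ => ?_
  unfold H95.csq rz
  norm_num

theorem gcw_eq (ε : Fin 3 → ℂ) {w : ℂ} (hw : w ≠ 0) : H95.gcw ε w = w ^ 3 * yc ε w⁻¹ := by
  have h1 : (w : ℂ) ^ 3 = ∏ _l : Fin 3, w := by simp
  unfold H95.gcw yc
  rw [h1, ← Finset.prod_mul_distrib, ct_eq]
  refine Finset.prod_congr rfl fun l _ => ?_
  unfold H95.csq rz
  have h2 : w⁻¹ - ctr l = (1 - ctr l * w) / w := by field_simp
  rw [h2, div_pow, div_div_eq_mul_div, ← mul_assoc, mul_div_cancel₀ _ hw]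
  norm_num

/-! ### base and core coordinates -/

/-- the half differences of the pairs of roots -/
def dd (q : Pa (Fin 3)) (k : Fin 3) : ℂ :=
  (1 / 16 : ℂ) * cexp ((-(q.1 k : ℂ) + (q.2 k : ℂ) * I) / 2)

/-- the sign of a core -/
def sgn (s : Bool) : ℂ := if s then -1 else 1

/-- the sign of a core, real -/
def sgr (s : Bool) : ℝ := if s then -1 else 1

variable {R : H95.Region} {m : ∀ k, Fin (R.n k + 1)}

/-- the base coordinates -/
def bb (p : Co R m) : Pa (Fin 3) := (p.2.2.1, p.2.2.2.1)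

/-- the coordinate of a core mark -/
def sC (j : L) {s : Bool} (h : R.pl j = Sum.inr s) (p : Co R m) : ℂ := p.2.2.2.2 ⟨j, by simp [h]⟩

theorem th_dd (p : Co R m) : H828.th (dd (bb p)) = rootsL p.2.2.1 p.2.2.2.1 := rfl

theorem eps_core (p : Co R m) : R.eps (emb R m p) = sqd dd (bb p) := by
  funext k
  have h := H732.eps_scl_psi R m p k
  have h2 : R.eps (emb R m p) k = R.eps (H732.scl R ((H732.wreg R.n m).psi p)) k := rfl
  rw [h2, h]
  unfold sqd dd bb
  rw [mul_pow, ← Complex.exp_nat_mul]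
  congr 2
  push_cast
  ring

theorem pos_emb {j : L} {s : Bool} (h : R.pl j = Sum.inr s) (p : Co R m) :
    R.pos (emb R m p) j = sC j h p := by
  rw [H724.pos_core _ h]
  unfold emb
  rw [H732.scl_apply]
  rfl

/-- the sheet of a core mark -/
theorem shE_near {j : L} {s : Bool} (h : R.pl j = Sum.inr s) {S : L → Bool} (hS : S j = false)
    (p : Co R m) : shE R m S p j = sgn s * yc (sqd dd (bb p)) (sC j h p) := by
  unfold shE
  rw [H724.sht_core _ h, hS, pos_emb h, eps_core, gc_eq]
  simp [sgn]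

/-- the sheet of a far mark -/
theorem shE_far' {j : L} {s : Bool} (h : R.pl j = Sum.inr s) {S : L → Bool} (hS : S j = true)
    (p : Co R m) : shE R m S p j = sgn s * H95.gcw (sqd dd (bb p)) (sC j h p) := by
  unfold shE
  rw [H724.sht_core _ h, hS, pos_emb h, eps_core]
  simp [sgn]

/-- the sheet of a far mark, in the chart `x` -/
theorem shE_far {j : L} {s : Bool} (h : R.pl j = Sum.inr s) {S : L → Bool} (hS : S j = true)
    (p : Co R m) (hw : sC j h p ≠ 0) :
    shE R m S p j * ((sC j h p)⁻¹) ^ 3 = sgn s * yc (sqd dd (bb p)) (sC j h p)⁻¹ := by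
  rw [shE_far' h hS, gcw_eq _ hw]
  field_simp

/-! ### smoothness -/

theorem contDiff_dd (k : Fin 3) : ContDiff ℝ ∞ fun q : Pa (Fin 3) => dd q k := by
  have a1 : ContDiff ℝ ∞ fun p : Pa (Fin 3) => ((p.1 k : ℝ) : ℂ) :=
    Complex.ofRealCLM.contDiff.comp (by fun_prop)
  have a2 : ContDiff ℝ ∞ fun p : Pa (Fin 3) => ((p.2 k : ℝ) : ℂ) :=
    Complex.ofRealCLM.contDiff.comp (by fun_prop)
  exact contDiff_const.mul ((a1.neg.add (a2.mul contDiff_const)).div_const _).cexp

theorem contDiff_dd' : ContDiff ℝ ∞ dd := contDiff_pi.2 contDiff_dd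

theorem contDiff_thd : ContDiff ℝ ∞ fun q : Pa (Fin 3) => H828.th (dd q) := by
  unfold H828.th
  refine contDiff_pi.2 fun i => ?_
  fin_cases i
  · exact contDiff_const.sub (contDiff_dd 0)
  · exact contDiff_const.add (contDiff_dd 0)
  · exact contDiff_const.sub (contDiff_dd 1)
  · exact contDiff_const.add (contDiff_dd 1)
  · exact contDiff_const.sub (contDiff_dd 2)
  · exact contDiff_const.add (contDiff_dd 2)

/-- the base coordinates, as a linear map -/
def bL : Co R m →L[ℝ] Pa (Fin 3) :=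
  ((ContinuousLinearMap.fst ℝ _ _).comp ((ContinuousLinearMap.snd ℝ _ _).comp
    (ContinuousLinearMap.snd ℝ _ _))).prod
  ((ContinuousLinearMap.fst ℝ _ _).comp ((ContinuousLinearMap.snd ℝ _ _).comp
    ((ContinuousLinearMap.snd ℝ _ _).comp (ContinuousLinearMap.snd ℝ _ _))))

theorem contDiff_bb : ContDiff ℝ ∞ (bb : Co R m → Pa (Fin 3)) :=
  (bL (R := R) (m := m)).contDiff

/-- the coordinate of a core mark, as a linear map -/
def sL (c : R.Cm) : Co R m →L[ℝ] ℂ :=
  (ContinuousLinearMap.proj c : (R.Cm → ℂ) →L[ℝ] ℂ).comp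
    ((ContinuousLinearMap.snd ℝ _ _).comp ((ContinuousLinearMap.snd ℝ _ _).comp
      ((ContinuousLinearMap.snd ℝ _ _).comp (ContinuousLinearMap.snd ℝ _ _))))

theorem contDiff_sC (j : L) {s : Bool} (h : R.pl j = Sum.inr s) :
    ContDiff ℝ ∞ (sC j h : Co R m → ℂ) :=
  (sL (R := R) (m := m) ⟨j, by simp [h]⟩).contDiff

theorem contDiff_emb : ContDiff ℝ ∞ (emb R m) := by
  have h := (H732.scl R).contDiff (n := ∞)
  have h2 := ((H732.wreg R.n m).contDiff_psi (C := R.Cm)).of_le (m := ∞) le_top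
  exact h.comp h2

theorem contDiff_pos (j : L) : ContDiff ℝ ∞ fun p : Co R m => R.pos (emb R m p) j := by
  rw [contDiff_iff_contDiffAt]
  intro p
  have h1 : ContDiffAt ℂ ∞ (fun q : R.Sp => R.pos q j) (emb R m p) :=
    (H724.an_pos (R := R) (p := emb R m p) j).contDiffAt
  exact ContDiffAt.comp (g := fun q : R.Sp => R.pos q j) (f := emb R m) p
    (h1.restrict_scalars ℝ) contDiff_emb.contDiffAt

theorem contDiff_posE : ContDiff ℝ ∞ (posE R m) := by
  have h0 := contDiff_thd.comp (contDiff_bb (R := R) (m := m))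
  have h1 : ContDiff ℝ ∞ fun p : Co R m => rootsL p.2.2.1 p.2.2.2.1 := h0
  have h2 : ContDiff ℝ ∞ fun p : Co R m => fun j => R.pos (emb R m p) j :=
    contDiff_pi.2 fun j => contDiff_pos j
  exact h1.prodMk h2

/-- the leg of one mark is the pull-back along `posj` -/
theorem fderiv_prj (j : L) (p : Co R m) :
    (prj j).comp (fderiv ℝ (posE R m) p) = fderiv ℝ (posj R m j) p := by
  have h1 : DifferentiableAt ℝ (posE R m) p :=
    (contDiff_posE (R := R) (m := m)).contDiffAt.differentiableAt (by simp)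
  exact (((prj j).hasFDerivAt.comp p h1.hasFDerivAt).fderiv).symm

theorem comp_prj (F : E1 →L[ℝ] ℝ) (j : L) (p : Co R m) :
    (F.comp (prj j)).comp (fderiv ℝ (posE R m) p) = F.comp (fderiv ℝ (posj R m j) p) := by
  rw [ContinuousLinearMap.comp_assoc, fderiv_prj]

theorem posj_core {j : L} {s : Bool} (h : R.pl j = Sum.inr s) :
    posj R m j = fun r => (H828.th (dd (bb r)), sC j h r) := by
  funext r
  exact Prod.ext rfl (pos_emb h r)

theorem differentiableAt_bb (p : Co R m) : DifferentiableAt ℝ (bb : Co R m → Pa (Fin 3)) p :=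
  contDiff_bb.contDiffAt.differentiableAt (by simp)

theorem differentiableAt_sC (j : L) {s : Bool} (h : R.pl j = Sum.inr s) (p : Co R m) :
    DifferentiableAt ℝ (sC j h : Co R m → ℂ) p :=
  (contDiff_sC j h).contDiffAt.differentiableAt (by simp)

/-! ### the legs -/

variable (η : Bs → ℂ → ℂ → (Bs × ℂ →L[ℝ] ℝ))

/-- **near core marks** -/
theorem leg_near {j : L} {s : Bool} (h : R.pl j = Sum.inr s) {S : L → Bool} (hS : S j = false)
    (p : Co R m) :
    ((η (posj R m j p).1 (posj R m j p).2 (shE R m S p j)).comp (prj j)).comp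
        (fderiv ℝ (posE R m) p) =
      (η (H828.th (dd (bb p))) (sC j h p) (sgn s * yc (sqd dd (bb p)) (sC j h p))).comp
        (fderiv ℝ (fun r : Co R m => (H828.th (dd (bb r)), sC j h r)) p) := by
  rw [comp_prj, shE_near h hS, posj_core h]

/-- **far core marks**, off infinity: `F` is the form in the chart `w = 1 / x` -/
theorem leg_far {j : L} {s : Bool} (h : R.pl j = Sum.inr s) {S : L → Bool} (hS : S j = true)
    (p : Co R m) (hw : sC j h p ≠ 0) {F : Bs × ℂ →L[ℝ] ℝ}
    (hF : F = (η (posj R m j p).1 ((posj R m j p).2)⁻¹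
      (shE R m S p j * (((posj R m j p).2)⁻¹) ^ 3)).comp
        (fderiv ℝ (fun q : Bs × ℂ => (q.1, (q.2)⁻¹)) (posj R m j p))) :
    (F.comp (prj j)).comp (fderiv ℝ (posE R m) p) =
      (η (H828.th (dd (bb p))) (sC j h p)⁻¹ (sgn s * yc (sqd dd (bb p)) (sC j h p)⁻¹)).comp
        (fderiv ℝ (fun r : Co R m => (H828.th (dd (bb r)), (sC j h r)⁻¹)) p) := by
  have e2 : (posj R m j p).2 = sC j h p := by rw [posj_core h]
  have e1 : (posj R m j p).1 = H828.th (dd (bb p)) := rfl
  rw [comp_prj, hF, ContinuousLinearMap.comp_assoc, e2, e1, shE_far h hS p hw]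
  congr 1
  have h1 : DifferentiableAt ℝ (posj R m j) p := by
    rw [posj_core h]
    exact ((contDiff_thd.comp (contDiff_bb (R := R) (m := m))).contDiffAt.differentiableAt
      (by simp)).prodMk (differentiableAt_sC j h p)
  have h2 : DifferentiableAt ℝ (fun q : Bs × ℂ => (q.1, (q.2)⁻¹)) (posj R m j p) := by
    refine differentiableAt_fst.prodMk ?_
    exact differentiableAt_snd.inv (by rw [e2]; exact hw)
  have h3 := (h2.hasFDerivAt.comp p h1.hasFDerivAt).fderiv
  rw [← h3, posj_core h]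
  rfl

end Vale.Agent.P273.H293

end
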