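import Vale.Agent.P273.H293.CoreLeg
import Vale.Agent.P273.H722.UCore2

/-!
# P273, row (U), cores: the leg of the flat form at a core mark is the derivative of the potential
-/

noncomputable section

namespace Vale.Agent.P273.H293

open scoped ContDiff Topology
open Set Filter Complex
open Vale.Agent.P273.H214 (Bs ff)
open Vale.Agent.P273.H722
open Vale.Agent.P273.H562 (Co W rootsL emb posE shE)
open Vale.Agent.P273.H803 (posj)
open Vale.Agent.P273.H973 (prj E1)
open Vale.Agent.P273.H95 (ctr L)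

variable {O : Set Bs} {η : Bs → ℂ → ℂ → (Bs × ℂ →L[ℝ] ℝ)} {A : Bs → (ℂ × ℂ →L[ℝ] ℝ)}
  {P0 : Set (Pa (Fin 3))} {a : Pa (Fin 3) → Fin 2 → ℂ} {cR : Pa (Fin 3) → Fin 3 → ℝ}
  {β : Fin 3 → ℝ} {C : Pa (Fin 3) → ℝ}

section Comp

variable {E : Type*} [NormedAddCommGroup E] [NormedSpace ℝ E]

/-- both cores -/
theorem core_both (h : CoreIn O η A P0 dd a cR β C)
    (hE : ∀ p ∈ Om P0, om η dd β p = fderiv ℝ (FF dd a cR C) p) {b : E → Pa (Fin 3)}
    {x : E → ℂ} {q : E} (hb : DifferentiableAt ℝ b q) (hx : DifferentiableAt ℝ x q)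
    (hp : (b q, x q) ∈ Om P0) {Lf : Fin 3 → ℂ → ℂ} (hL : ∀ l, IsLg (ct l) (Lf l) (x q))
    (s : Bool) :
    HasFDerivAt (fun r => sgr s * UU dd a cR β C Lf (b r, x r))
      ((η (H828.th (dd (b q))) (x q) (sgn s * yc (sqd dd (b q)) (x q))).comp
        (fderiv ℝ (fun r => (H828.th (dd (b r)), x r)) q)) q := by
  cases s
  · simpa [sgn, sgr] using core_hasFDerivAt h hE hb hx hp hL
  · simpa [sgn, sgr] using core_hasFDerivAt_neg h hE hb hx hp hL

/-- both cores, chart at infinity -/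
theorem far_both (h : CoreIn O η A P0 dd a cR β C)
    (hE : ∀ p ∈ Om P0, om η dd β p = fderiv ℝ (FF dd a cR C) p) {b : E → Pa (Fin 3)}
    {w : E → ℂ} {q : E} (hb : DifferentiableAt ℝ b q) (hw : DifferentiableAt ℝ w q)
    (hp : b q ∈ P0) (h0 : w q ≠ 0) (h8 : ‖w q‖ < 1 / 8) (s : Bool) :
    HasFDerivAt (fun r => sgr s * UI dd a cR β C (b r, w r))
      ((η (H828.th (dd (b q))) (w q)⁻¹ (sgn s * yc (sqd dd (b q)) (w q)⁻¹)).comp
        (fderiv ℝ (fun r => (H828.th (dd (b r)), (w r)⁻¹)) q)) q := by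
  cases s
  · simpa [sgn, sgr] using far_hasFDerivAt h hE hb hw hp h0 h8
  · simpa [sgn, sgr] using far_hasFDerivAt_neg h hE hb hw hp h0 h8

end Comp

variable {R : H95.Region} {m : ∀ k, Fin (R.n k + 1)}

/-- **near core marks**: the leg of the flat form is the derivative of the potential -/
theorem leg_near_pot (hC : CoreIn O η A P0 dd a cR β C)
    (hE : ∀ p ∈ Om P0, om η dd β p = fderiv ℝ (FF dd a cR C) p)
    {j : L} {s : Bool} (h : R.pl j = Sum.inr s) {S : L → Bool} (hS : S j = false)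
    {p : Co R m} (hp : bb p ∈ P0) (hx : ∀ k, 1 / 128 < ‖sC j h p - ctr k‖)
    {Lf : Fin 3 → ℂ → ℂ} (hL : ∀ l, IsLg (ctr l) (Lf l) (sC j h p)) :
    HasFDerivAt (fun r : Co R m => sgr s * UU dd a cR β C Lf (bb r, sC j h r))
      (((η (posj R m j p).1 (posj R m j p).2 (shE R m S p j)).comp (prj j)).comp
        (fderiv ℝ (posE R m) p)) p := by
  rw [leg_near η h hS p]
  exact core_both hC hE (differentiableAt_bb p) (differentiableAt_sC j h p) ⟨hp, hx⟩ hL s

/-- **far core marks off infinity**: `F` is the flat form in the chart `w = 1 / x` -/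
theorem leg_far_pot (hC : CoreIn O η A P0 dd a cR β C)
    (hE : ∀ p ∈ Om P0, om η dd β p = fderiv ℝ (FF dd a cR C) p)
    {j : L} {s : Bool} (h : R.pl j = Sum.inr s) {S : L → Bool} (hS : S j = true)
    {p : Co R m} (hp : bb p ∈ P0) (h0 : sC j h p ≠ 0) (h8 : ‖sC j h p‖ < 1 / 8)
    {F : Bs × ℂ →L[ℝ] ℝ}
    (hF : F = (η (posj R m j p).1 ((posj R m j p).2)⁻¹
      (shE R m S p j * (((posj R m j p).2)⁻¹) ^ 3)).comp
        (fderiv ℝ (fun q : Bs × ℂ => (q.1, (q.2)⁻¹)) (posj R m j p))) :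
    HasFDerivAt (fun r : Co R m => sgr s * UI dd a cR β C (bb r, sC j h r))
      ((F.comp (prj j)).comp (fderiv ℝ (posE R m) p)) p := by
  rw [leg_far η h hS p h0 hF]
  exact far_both hC hE (differentiableAt_bb p) (differentiableAt_sC j h p) hp h0 h8 s

end Vale.Agent.P273.H293

end
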